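import Vale.Agent.P181.FL.H388.Kap
import Vale.Agent.P181.FLAT.H246.HL
import Vale.Agent.P181.H445.FL.Pow
import Vale.Agent.P181.H445.FL.Asm

set_option autoImplicit false

/-!
# P181, FL: the line closed: `DomStmt` and `FlatStmt` without hypotheses
-/

namespace Vale.Agent.P181.FL.H388

/-- [KAP] closed. -/
theorem domc : DomStmt := dom Vale.Agent.P181.FLAT.H246.hl Vale.Agent.P181.H445.FL.pow_series

/-- Flat shapes, any number `d` of slots. -/
theorem flatG {d q c n : ℕ} (hc : Even c) (hq : 1 ≤ q) (lam : Fin n → ℕ)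
    (hlam : ∀ i, lam i ≤ (q + 1) * c) :
    Vale.Agent.P181.H280.plethMult d (q * c) n lam ≤
      Vale.Agent.P181.H280.plethMult (q * d) c n lam :=
  Vale.Agent.P181.H445.FL.flatG domc d q c n lam hc hq hlam

/-- **Flat shapes**: `a` even, `b = q a`, all `lam i ≤ (q + 1) a`. -/
theorem flat : FlatStmt := Vale.Agent.P181.H445.FL.flat domc

end Vale.Agent.P181.FL.H388

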