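import Vale.Agent.P181.FL.Defs
import Mathlib.LinearAlgebra.ExteriorAlgebra.OfAlternating
import Mathlib.LinearAlgebra.Matrix.Determinant.Basic

set_option autoImplicit false

open scoped BigOperators

namespace Vale.Agent.P181.FL.H388

open Finset

variable {V : Type} [AddCommGroup V] [Module ℂ V]

/-- a product of `n` vectors moves past a vector with the sign `(-1)^n`. -/
lemma ι_comm_list (x : V) (l : List V) :
    ExteriorAlgebra.ι ℂ x * (l.map (ExteriorAlgebra.ι ℂ)).prod =
      (-1 : ℂ) ^ l.length • ((l.map (ExteriorAlgebra.ι ℂ)).prod * ExteriorAlgebra.ι ℂ x) := by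
  induction l with
  | nil => simp
  | cons y l ih =>
    have h : ExteriorAlgebra.ι ℂ x * ExteriorAlgebra.ι ℂ y =
        - (ExteriorAlgebra.ι ℂ y * ExteriorAlgebra.ι ℂ x) :=
      eq_neg_of_add_eq_zero_left (ExteriorAlgebra.ι_add_mul_swap x y)
    rw [List.map_cons, List.prod_cons, ← mul_assoc, h, neg_mul, mul_assoc, ih, mul_smul_comm,
      List.length_cons, pow_succ, ← mul_assoc, mul_neg_one, neg_smul]

/-- even elements are central. -/
lemma mem_center_of_even {m : ℕ} (hm : Even m) (F : ExteriorAlgebra ℂ V)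
    (hF : F ∈ (⋀[ℂ]^m V)) : F ∈ Subalgebra.center ℂ (ExteriorAlgebra ℂ V) := by
  rw [← ExteriorAlgebra.ιMulti_span_fixedDegree] at hF
  induction hF using Submodule.span_induction with
  | mem y hy =>
    obtain ⟨v, rfl⟩ := hy
    rw [Subalgebra.mem_center_iff]
    intro b
    have key : ∀ x : V, ExteriorAlgebra.ι ℂ x * ExteriorAlgebra.ιMulti ℂ m v =
        ExteriorAlgebra.ιMulti ℂ m v * ExteriorAlgebra.ι ℂ x := by
      intro x
      have h := ι_comm_list x (List.ofFn v)
      rw [List.length_ofFn, hm.neg_one_pow, one_smul, List.map_ofFn] at h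
      exact h
    induction b using ExteriorAlgebra.induction with
    | algebraMap r => exact Algebra.commutes r _
    | ι x => exact key x
    | mul a b ha hb => rw [mul_assoc, hb, ← mul_assoc, ha, mul_assoc]
    | add a b ha hb => rw [add_mul, mul_add, ha, hb]
  | zero => exact Subalgebra.zero_mem _
  | add a b _ _ ha hb => exact Subalgebra.add_mem _ ha hb
  | smul r a _ ha => exact Subalgebra.smul_mem _ ha r

/-- `⋀^m` is spanned by the words in a spanning family of letters. -/
lemma exists_coeff {L : Type} [Fintype L] [DecidableEq L] {m : ℕ} (F : ExteriorAlgebra ℂ (L → ℂ))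
    (hF : F ∈ (⋀[ℂ]^m (L → ℂ))) :
    ∃ c : (Fin m → L) → ℂ, F = ∑ w, c w •
      ExteriorAlgebra.ιMulti ℂ m (fun i => (Pi.single (w i) (1 : ℂ) : L → ℂ)) := by
  have h1 : LinearMap.range (ExteriorAlgebra.ι ℂ : (L → ℂ) →ₗ[ℂ] _) =
      Submodule.span ℂ (Set.range (fun l : L =>
        ExteriorAlgebra.ι ℂ (Pi.single l (1 : ℂ) : L → ℂ))) := by
    rw [LinearMap.range_eq_map, ← (Pi.basisFun ℂ L).span_eq, Submodule.map_span, ← Set.range_comp]
    congr 1
    ext x
    simp
  have h2 : F ∈ Submodule.span ℂ (Set.range (fun w : Fin m → L =>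
      ExteriorAlgebra.ιMulti ℂ m (fun i => (Pi.single (w i) (1 : ℂ) : L → ℂ)))) := by
    have h3 : F ∈ (LinearMap.range (ExteriorAlgebra.ι ℂ : (L → ℂ) →ₗ[ℂ] _)) ^ m := hF
    rw [h1, Submodule.span_pow] at h3
    refine Submodule.span_mono ?_ h3
    intro u hu
    obtain ⟨f, rfl⟩ := Set.mem_pow.mp hu
    choose w hw using fun i => (f i).2
    refine ⟨w, ?_⟩
    simp only [ExteriorAlgebra.ιMulti_apply]
    congr 2
    ext i
    exact hw i
  obtain ⟨c, hc⟩ := (Submodule.mem_span_range_iff_exists_fun ℂ).1 h2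
  exact ⟨c, hc.symm⟩

end Vale.Agent.P181.FL.H388
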