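import Vale.Agent.P181.FL.H388.K1
import Mathlib.GroupTheory.Perm.Sign

set_option autoImplicit false

open scoped BigOperators

namespace Vale.Agent.P181.FL.H388

open Finset

section Coord

variable {L : Type} [Fintype L] [DecidableEq L]

/-- The word `w` as an element of the exterior algebra. -/
noncomputable def wd {d : ℕ} (w : Fin d → L) : ExteriorAlgebra ℂ (L → ℂ) :=
  ExteriorAlgebra.ιMulti ℂ d (fun i => (Pi.single (w i) (1 : ℂ) : L → ℂ))

/-- The coordinate functional of the word `s`. -/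
noncomputable def coord (d : ℕ) (s : Fin d → L) : ExteriorAlgebra ℂ (L → ℂ) →ₗ[ℂ] ℂ :=
  ExteriorAlgebra.liftAlternating (Pi.single d
    ((Matrix.detRowAlternating (R := ℂ) (n := Fin d)).compLinearMap (LinearMap.funLeft ℂ ℂ s)))

lemma coord_wd {d : ℕ} (s w : Fin d → L) :
    coord d s (wd w) = ∑ σ : Equiv.Perm (Fin d), ((Equiv.Perm.sign σ : ℤ) : ℂ) *
      ∏ i, (if s i = w (σ i) then (1 : ℂ) else 0) := by
  rw [coord, wd, ExteriorAlgebra.liftAlternating_apply_ιMulti, Pi.single_eq_same,
    AlternatingMap.compLinearMap_apply]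
  change Matrix.det (Matrix.of fun i j => (Pi.single (w i) (1 : ℂ) : L → ℂ) (s j)) = _
  rw [Matrix.det_apply']
  apply Finset.sum_congr rfl
  intro σ _
  congr 1
  apply Finset.prod_congr rfl
  intro i _
  rw [Matrix.of_apply, Pi.single_apply]

/-- The multilinear functional. -/
noncomputable def TT (d N : ℕ) (kp : (Fin N → Fin d → L) → ℂ) :
    MultilinearMap ℂ (fun _ : Fin N => ExteriorAlgebra ℂ (L → ℂ)) ℂ :=
  ∑ s : Fin N → Fin d → L, kp s • (MultilinearMap.mkPiAlgebra ℂ (Fin N) ℂ).compLinearMap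
    (fun i => coord d (s i))

lemma TT_apply (d N : ℕ) (kp : (Fin N → Fin d → L) → ℂ) (K : Fin N → ExteriorAlgebra ℂ (L → ℂ)) :
    TT d N kp K = ∑ s : Fin N → Fin d → L, kp s * ∏ i, coord d (s i) (K i) := by
  simp only [TT, _root_.sum_apply, _root_.smul_apply,
    MultilinearMap.compLinearMap_apply, MultilinearMap.mkPiAlgebra_apply, smul_eq_mul]

lemma TT_wd (d N : ℕ) (kp : (Fin N → Fin d → L) → ℂ)
    (hk : ∀ (σ : Fin N → Equiv.Perm (Fin d)) (w : Fin N → Fin d → L),
      kp (fun i j => w i (σ i j)) = (∏ i, ((Equiv.Perm.sign (σ i) : ℤ) : ℂ)) * kp w)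
    (w : Fin N → Fin d → L) :
    TT d N kp (fun i => wd (w i)) = ((d.factorial : ℂ) ^ N) * kp w := by
  rw [TT_apply]
  simp only [coord_wd]
  have h1 : ∀ s : Fin N → Fin d → L,
      kp s * ∏ i, ∑ σ : Equiv.Perm (Fin d), ((Equiv.Perm.sign σ : ℤ) : ℂ) *
        ∏ j, (if s i j = w i (σ j) then (1 : ℂ) else 0) =
      ∑ σ : Fin N → Equiv.Perm (Fin d), (∏ i, ((Equiv.Perm.sign (σ i) : ℤ) : ℂ)) *
        (if s = (fun i j => w i (σ i j)) then kp s else 0) := by
    intro s
    rw [Finset.prod_univ_sum, Finset.mul_sum, Fintype.piFinset_univ]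
    apply Finset.sum_congr rfl
    intro σ _
    rw [Finset.prod_mul_distrib]
    have h2 : ∏ i, ∏ j, (if s i j = w i (σ i j) then (1 : ℂ) else 0) =
        if s = (fun i j => w i (σ i j)) then (1 : ℂ) else 0 := by
      split_ifs with h
      · apply Finset.prod_eq_one
        intro i _
        apply Finset.prod_eq_one
        intro j _
        rw [if_pos (by rw [h])]
      · have h3 : ∃ i j, s i j ≠ w i (σ i j) := by
          by_contra h4
          push Not at h4
          exact h (funext fun i => funext fun j => h4 i j)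
        obtain ⟨i, j, hij⟩ := h3
        apply Finset.prod_eq_zero (Finset.mem_univ i)
        apply Finset.prod_eq_zero (Finset.mem_univ j)
        rw [if_neg hij]
    rw [h2]
    split_ifs <;> ring
  rw [Finset.sum_congr rfl (fun s _ => h1 s), Finset.sum_comm]
  have h5 : ∀ σ : Fin N → Equiv.Perm (Fin d),
      ∑ s : Fin N → Fin d → L, (∏ i, ((Equiv.Perm.sign (σ i) : ℤ) : ℂ)) *
        (if s = (fun i j => w i (σ i j)) then kp s else 0) = kp w := by
    intro σ
    rw [← Finset.mul_sum, Finset.sum_ite_eq' Finset.univ, if_pos (Finset.mem_univ _), hk,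
      ← mul_assoc, ← Finset.prod_mul_distrib]
    have h6 : ∀ i, ((Equiv.Perm.sign (σ i) : ℤ) : ℂ) * ((Equiv.Perm.sign (σ i) : ℤ) : ℂ) = 1 := by
      intro i
      rw [← Int.cast_mul, ← Units.val_mul, Int.units_mul_self]
      simp
    rw [Finset.prod_congr rfl (fun i _ => h6 i), Finset.prod_const_one, one_mul]
  rw [Finset.sum_congr rfl (fun σ _ => h5 σ), Finset.sum_const, Finset.card_univ,
    Fintype.card_fun, Fintype.card_perm, Fintype.card_fin, Fintype.card_fin, nsmul_eq_mul]
  push_cast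
  rfl

/-- A product of `q` words of length `m`. -/
lemma prod_wd {q m : ℕ} (r : Fin q → Fin m → L) :
    (List.ofFn (fun k => wd (r k))).prod = wd (fun x : Fin (q * m) => r x.divNat x.modNat) := by
  rw [wd, ExteriorAlgebra.ιMulti_apply, List.ofFn_mul, List.prod_flatten, List.map_ofFn]
  congr 2
  ext1 k
  simp only [Function.comp]
  rw [wd, ExteriorAlgebra.ιMulti_apply]
  congr 2
  ext1 j
  congr 2
  have h := finProdFinEquiv.symm_apply_apply (k, j)
  have h1 : (finProdFinEquiv (k, j)) = (⟨k * m + j, by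
    calc (k : ℕ) * m + j < (k + 1) * m := by
          rw [Nat.add_mul, Nat.one_mul]; exact Nat.add_lt_add_left j.prop _
      _ ≤ _ := Nat.mul_le_mul_right _ k.prop⟩ : Fin (q * m)) := by
    ext
    simp [finProdFinEquiv]
    ring
  rw [h1] at h
  have h2 := congrArg Prod.fst h
  have h3 := congrArg Prod.snd h
  simp only [finProdFinEquiv_symm_apply] at h2 h3
  rw [h2, h3]

/-- The expansion of a `q`-th power. -/
lemma pow_expand {q m : ℕ} (c : (Fin m → L) → ℂ) :
    (∑ w, c w • wd w) ^ q = ∑ r : Fin q → Fin m → L, (∏ k, c (r k)) •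
      wd (fun x : Fin (q * m) => r x.divNat x.modNat) := by
  have h1 : (∑ w, c w • wd w) ^ q =
      (MultilinearMap.mkPiAlgebraFin ℂ q (ExteriorAlgebra ℂ (L → ℂ)))
        (fun _ => ∑ w : Fin m → L, c w • wd w) := by
    rw [MultilinearMap.mkPiAlgebraFin_apply_const]
  rw [h1, MultilinearMap.map_sum]
  apply Finset.sum_congr rfl
  intro r _
  rw [MultilinearMap.map_smul_univ, MultilinearMap.mkPiAlgebraFin_apply, prod_wd]

end Coord

end Vale.Agent.P181.FL.H388
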