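import Vale.Agent.P181.FL.H388.K2
import Vale.Agent.P181.H280.Core

set_option autoImplicit false

open scoped BigOperators

namespace Vale.Agent.P181.FL.H388

open Finset

section Words

variable {L X : Type} [Fintype L] [DecidableEq L] {N q m : ℕ}

/-- `kap` on words slot by slot. -/
def kpOf (kap : (Pos N q m → X) → ℂ) (emb : L → X) (s : Fin N → Fin (q * m) → L) : ℂ :=
  kap (fun p => emb (s p.1.1 (finProdFinEquiv (p.1.2, p.2))))

/-- The positions slot by slot. -/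
def posE (N q m : ℕ) : Pos N q m ≃ Fin N × Fin (q * m) :=
  (Equiv.prodAssoc _ _ _).trans ((Equiv.refl _).prodCongr finProdFinEquiv)

lemma posE_apply (p : Pos N q m) : posE N q m p = (p.1.1, finProdFinEquiv (p.1.2, p.2)) := rfl

lemma kp_sign (kap : (Pos N q m → X) → ℂ) (emb : L → X)
    (h1 : ∀ g : Equiv.Perm (Pos N q m), (∀ p, (g p).1.1 = p.1.1) →
      ∀ c, kap (fun p => c (g p)) = ((Equiv.Perm.sign g : ℤ) : ℂ) * kap c)
    (σ : Fin N → Equiv.Perm (Fin (q * m))) (w : Fin N → Fin (q * m) → L) :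
    kpOf kap emb (fun i j => w i (σ i j)) =
      (∏ i, ((Equiv.Perm.sign (σ i) : ℤ) : ℂ)) * kpOf kap emb w := by
  set g : Equiv.Perm (Pos N q m) := (posE N q m).symm.permCongr (Equiv.prodCongrRight σ) with hg
  have hE : ∀ p, posE N q m (g p) =
      ((posE N q m p).1, σ (posE N q m p).1 (posE N q m p).2) := by
    intro p
    rw [hg, Equiv.permCongr_apply, Equiv.symm_symm, Equiv.apply_symm_apply]
    rfl
  have h2 := h1 g (fun p => (Prod.ext_iff.1 (hE p)).1)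
    (fun p => emb (w p.1.1 (finProdFinEquiv (p.1.2, p.2))))
  have h3 : ((Equiv.Perm.sign g : ℤ) : ℂ) = ∏ i, ((Equiv.Perm.sign (σ i) : ℤ) : ℂ) := by
    rw [hg, Equiv.Perm.sign_permCongr, Equiv.Perm.sign_prodCongrRight, Units.coe_prod,
      Int.cast_prod]
  rw [h3] at h2
  rw [kpOf, kpOf, ← h2]
  congr 1
  ext1 p
  congr 1
  have h4 := hE p
  rw [posE_apply, posE_apply] at h4
  have h5 : (g p).1.1 = p.1.1 := (Prod.ext_iff.1 h4).1
  have h6 : finProdFinEquiv ((g p).1.2, (g p).2) = σ p.1.1 (finProdFinEquiv (p.1.2, p.2)) :=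
    (Prod.ext_iff.1 h4).2
  rw [h6, h5]

lemma kp_cat (kap : (Pos N q m → X) → ℂ) (emb : L → X) (ρ : Fin N → Fin q → Fin m → L) :
    kpOf kap emb (fun i x => ρ i x.divNat x.modNat) =
      kap (fun p => emb (ρ p.1.1 p.1.2 p.2)) := by
  rw [kpOf]
  congr 1
  ext1 p
  have h := finProdFinEquiv.symm_apply_apply (p.1.2, p.2)
  have h2 := congrArg Prod.fst h
  have h3 := congrArg Prod.snd h
  simp only [finProdFinEquiv_symm_apply] at h2 h3
  rw [h2, h3]

lemma sum_zero (kap : (Pos N q m → X) → ℂ) (emb : L → X)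
    (h3 : ∀ c : Pos N q m → X,
      ∑ g : Equiv.Perm (Fin N × Fin q), kap (fun p => c (g p.1, p.2)) = 0)
    (c : (Fin m → L) → ℂ) :
    ∑ ρ : Fin N → Fin q → Fin m → L, (∏ i, ∏ k, c (ρ i k)) *
      kap (fun p => emb (ρ p.1.1 p.1.2 p.2)) = 0 := by
  have h4 : ∑ ρ : Fin N → Fin q → Fin m → L, (∏ i, ∏ k, c (ρ i k)) *
      kap (fun p => emb (ρ p.1.1 p.1.2 p.2)) =
      ∑ J : Fin N × Fin q → Fin m → L, (∏ x, c (J x)) * kap (fun p => emb (J p.1 p.2)) := by
    apply Fintype.sum_equiv (Equiv.curry (Fin N) (Fin q) (Fin m → L)).symm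
    intro ρ
    rw [Fintype.prod_prod_type]
    rfl
  rw [h4]
  set S := ∑ J : Fin N × Fin q → Fin m → L, (∏ x, c (J x)) * kap (fun p => emb (J p.1 p.2))
    with hS
  have h5 : ∀ g : Equiv.Perm (Fin N × Fin q), S =
      ∑ J : Fin N × Fin q → Fin m → L, (∏ x, c (J x)) *
        kap (fun p => emb (J (g p.1) p.2)) := by
    intro g
    rw [hS, ← Equiv.sum_comp (Equiv.arrowCongr g.symm (Equiv.refl (Fin m → L)))]
    apply Finset.sum_congr rfl
    intro J _
    have h6 : ∏ x, c ((Equiv.arrowCongr g.symm (Equiv.refl (Fin m → L))) J x) =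
        ∏ x, c (J x) := Equiv.prod_comp g (fun x => c (J x))
    rw [h6]
    rfl
  have h7 : ∑ _g : Equiv.Perm (Fin N × Fin q), S = 0 := by
    rw [Finset.sum_congr rfl (fun g _ => h5 g), Finset.sum_comm]
    apply Finset.sum_eq_zero
    intro J _
    rw [← Finset.mul_sum, h3 (fun p => emb (J p.1 p.2)), mul_zero]
  rw [Finset.sum_const, Finset.card_univ, nsmul_eq_mul] at h7
  rcases mul_eq_zero.1 h7 with h8 | h8
  · exact absurd h8 (Nat.cast_ne_zero.2 Fintype.card_ne_zero)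
  · exact h8

lemma TT_pow (kap : (Pos N q m → X) → ℂ) (emb : L → X)
    (h1 : ∀ g : Equiv.Perm (Pos N q m), (∀ p, (g p).1.1 = p.1.1) →
      ∀ c, kap (fun p => c (g p)) = ((Equiv.Perm.sign g : ℤ) : ℂ) * kap c)
    (h3 : ∀ c : Pos N q m → X,
      ∑ g : Equiv.Perm (Fin N × Fin q), kap (fun p => c (g p.1, p.2)) = 0)
    (F : ExteriorAlgebra ℂ (L → ℂ)) (hF : F ∈ (⋀[ℂ]^m (L → ℂ))) :
    TT (q * m) N (kpOf kap emb) (fun _ => F ^ q) = 0 := by
  obtain ⟨c, rfl⟩ := exists_coeff F hF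
  have h4 : (∑ w, c w • ExteriorAlgebra.ιMulti ℂ m
      (fun i => (Pi.single (w i) (1 : ℂ) : L → ℂ))) ^ q =
      ∑ r : Fin q → Fin m → L, (∏ k, c (r k)) •
      wd (fun x : Fin (q * m) => r x.divNat x.modNat) := pow_expand c
  rw [h4, MultilinearMap.map_sum]
  have h5 : ∀ ρ : Fin N → Fin q → Fin m → L,
      TT (q * m) N (kpOf kap emb) (fun i => (∏ k, c (ρ i k)) •
        wd (fun x : Fin (q * m) => ρ i x.divNat x.modNat)) =
      (((q * m).factorial : ℂ) ^ N) * ((∏ i, ∏ k, c (ρ i k)) *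
        kap (fun p => emb (ρ p.1.1 p.1.2 p.2))) := by
    intro ρ
    rw [MultilinearMap.map_smul_univ, TT_wd _ _ _ (kp_sign kap emb h1)
      (fun i x => ρ i x.divNat x.modNat), kp_cat, smul_eq_mul]
    ring
  rw [Finset.sum_congr rfl (fun ρ _ => h5 ρ), ← Finset.mul_sum, sum_zero kap emb h3 c, mul_zero]

end Words

section Dom

/-- The even elements of degree `d`. -/
noncomputable def Dg (h d : ℕ) :
    Submodule ℂ (Subalgebra.center ℂ (ExteriorAlgebra ℂ (Fin h ⊕ Fin h → ℂ))) :=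
  Submodule.comap (Subalgebra.val _).toLinearMap (⋀[ℂ]^d (Fin h ⊕ Fin h → ℂ))

lemma mem_Dg {h d : ℕ} (x : Subalgebra.center ℂ (ExteriorAlgebra ℂ (Fin h ⊕ Fin h → ℂ))) :
    x ∈ Dg h d ↔ (x : ExteriorAlgebra ℂ (Fin h ⊕ Fin h → ℂ)) ∈
      (⋀[ℂ]^d (Fin h ⊕ Fin h → ℂ)) := Iff.rfl

lemma om_mem (h : ℕ) : om h ∈ (⋀[ℂ]^2 (Fin h ⊕ Fin h → ℂ)) := by
  rw [om]
  apply Submodule.sum_mem
  intro i _
  change _ ∈ (LinearMap.range (ExteriorAlgebra.ι ℂ : (Fin h ⊕ Fin h → ℂ) →ₗ[ℂ] _)) ^ 2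
  rw [pow_two]
  exact Submodule.mul_mem_mul (LinearMap.mem_range_self _ _) (LinearMap.mem_range_self _ _)

lemma om_pow_mem (h k : ℕ) : om h ^ k ∈ (⋀[ℂ]^(k + k) (Fin h ⊕ Fin h → ℂ)) := by
  have h1 := Submodule.pow_mem_pow _ (om_mem h) k
  rw [← pow_mul] at h1
  have h2 : 2 * k = k + k := two_mul k
  rw [h2] at h1
  exact h1

lemma Dg_pow_le (h m q : ℕ) : Dg h m ^ q ≤ Dg h (q * m) := by
  apply Submodule.map_le_iff_le_comap.1
  rw [Submodule.map_pow]
  have h1 : Submodule.map (Subalgebra.val _).toLinearMap (Dg h m) ≤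
      (⋀[ℂ]^m (Fin h ⊕ Fin h → ℂ)) := Submodule.map_comap_le _ _
  have h2 : (⋀[ℂ]^(q * m) (Fin h ⊕ Fin h → ℂ)) = (⋀[ℂ]^m (Fin h ⊕ Fin h → ℂ)) ^ q := by
    change (LinearMap.range (ExteriorAlgebra.ι ℂ : (Fin h ⊕ Fin h → ℂ) →ₗ[ℂ] _)) ^ (q * m) =
      ((LinearMap.range (ExteriorAlgebra.ι ℂ : (Fin h ⊕ Fin h → ℂ) →ₗ[ℂ] _)) ^ m) ^ q
    rw [← pow_mul, mul_comm]
  rw [h2]
  exact pow_le_pow_left' h1 q

theorem dom (hHL : HLStmt) (hP : PowStmt) : DomStmt := by
  intro N q m kap hm hq h1 h2 h3 c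
  obtain ⟨m', rfl⟩ := hm
  set h : ℕ := (q + 1) * m' with hh
  have hcard : h + h = (q + 1) * (m' + m') := by rw [hh]; ring
  let emb : Fin h ⊕ Fin h ≃ Fin ((q + 1) * (m' + m')) := finSumFinEquiv.trans (finCongr hcard)
  let R := Subalgebra.center ℂ (ExteriorAlgebra ℂ (Fin h ⊕ Fin h → ℂ))
  have heven : Even (m' + m') := ⟨m', rfl⟩
  have hqeven : Even (q * (m' + m')) := heven.mul_left q
  let F₀ : R := ⟨om h ^ m', mem_center_of_even heven _ (om_pow_mem h m')⟩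
  let T : MultilinearMap ℂ (fun _ : Fin N => R) ℂ :=
    (TT (q * (m' + m')) N (kpOf kap emb)).compLinearMap (fun _ => R.val.toLinearMap)
  have hT : ∀ K : Fin N → R, T K = TT (q * (m' + m')) N (kpOf kap emb) (fun i => (K i : ExteriorAlgebra ℂ (Fin h ⊕ Fin h → ℂ))) :=
    fun K => rfl
  have hdiag : ∀ K ∈ Dg h (q * (m' + m')), T (fun _ => K) = 0 := by
    refine hP R (Dg h (m' + m')) (Dg h (q * (m' + m'))) q N F₀ T hq (om_pow_mem h m')
      (Dg_pow_le h (m' + m') q) ?_ ?_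
    · intro K hK
      obtain ⟨q', rfl⟩ : ∃ q', q = q' + 1 := ⟨q - 1, by omega⟩
      have e1 : (m' + m') + q' * m' = h := by rw [hh]; ring
      have e2 : (m' + m') + 2 * (q' * m') = (q' + 1) * (m' + m') := by ring
      obtain ⟨H, hH, hHK⟩ := hHL h (m' + m') (q' * m') e1 (K : ExteriorAlgebra ℂ (Fin h ⊕ Fin h → ℂ))
        (by rw [e2]; exact hK)
      refine ⟨⟨H, mem_center_of_even heven _ hH⟩, hH, ?_⟩
      apply Subtype.ext
      rw [← hHK]
      change (om h ^ m') ^ (q' + 1 - 1) * H = _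
      rw [Nat.add_sub_cancel, ← pow_mul, mul_comm m' q']
    · intro F hF
      rw [hT]
      exact TT_pow kap emb h1 h3 (F : ExteriorAlgebra ℂ (Fin h ⊕ Fin h → ℂ)) hF
  -- the word
  let w : Fin N → Fin (q * (m' + m')) → Fin h ⊕ Fin h :=
    fun i x => emb.symm (c ((i, x.divNat), x.modNat))
  have hw : ∀ i, wd (w i) ∈ (⋀[ℂ]^(q * (m' + m')) (Fin h ⊕ Fin h → ℂ)) := by
    intro i
    rw [← ExteriorAlgebra.ιMulti_span_fixedDegree]
    exact Submodule.subset_span ⟨_, rfl⟩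
  have hpol := H280.polar T (Dg h (q * (m' + m'))) hdiag
    (fun i => (⟨wd (w i), mem_center_of_even hqeven _ (hw i)⟩ : R)) (fun i => hw i)
  have hterm : ∀ π : Equiv.Perm (Fin N),
      T (fun p => (⟨wd (w (π p)), mem_center_of_even hqeven _ (hw (π p))⟩ : R)) =
      (((q * (m' + m')).factorial : ℂ) ^ N) * kap c := by
    intro π
    rw [hT]
    have h4 := TT_wd (q * (m' + m')) N (kpOf kap emb) (kp_sign kap emb h1) (fun i => w (π i))
    have h5 : kpOf kap emb (fun i => w (π i)) = kap c := by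
      have h6 := kp_cat kap emb (fun i k s => emb.symm (c ((π i, k), s)))
      have h7 := h2 π c
      rw [← h7]
      have h8 : (fun p : Pos N q (m' + m') => emb (emb.symm (c ((π p.1.1, p.1.2), p.2)))) =
          fun p => c ((π p.1.1, p.1.2), p.2) := by
        ext1 p
        rw [Equiv.apply_symm_apply]
      rw [h8] at h6
      exact h6
    rw [h5] at h4
    exact h4
  rw [Finset.sum_congr rfl (fun π _ => hterm π), Finset.sum_const, Finset.card_univ,
    nsmul_eq_mul] at hpol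
  rcases mul_eq_zero.1 hpol with h8 | h8
  · exact absurd h8 (Nat.cast_ne_zero.2 Fintype.card_ne_zero)
  · rcases mul_eq_zero.1 h8 with h9 | h9
    · exact absurd h9 (pow_ne_zero _ (Nat.cast_ne_zero.2 (Nat.factorial_ne_zero _)))
    · exact h9

end Dom

end Vale.Agent.P181.FL.H388
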